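import Vale.Agent.P080.C1.Main
import Vale.Agent.P080.C1.Compare
import Vale.Agent.P080.C1.EnergyOut
import Vale.Agent.P080.C1.Bernstein
import Vale.Agent.P080.C1.GoodScale
import Vale.Agent.P080.C1.Approx.Comparison

/-!
# Interior gradient Hölder estimate for infinity-harmonic functions in three dimensions
-/

open scoped ContDiff
open Metric Vale.Agent.P080 Vale.Agent.P080.C1 Vale.Agent.P080.C1.Approx

namespace Vale.Agent.Results.P080.GradientHolderDim3

/-- Infinity-harmonic functions in three dimensions are continuously differentiable and satisfy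
an interior Hölder estimate for the gradient with universal exponent and constant. -/
theorem result :
    (∀ (U : Set (E 3)) (u : E 3 → ℝ), IsOpen U → IsSub u U → IsSub (fun x => -u x) U →
      ContDiffOn ℝ 1 u U) ∧
    ∃ α C : ℝ, 0 < α ∧ 0 < C ∧ ∀ (u : E 3 → ℝ) (x0 : E 3) (R M : ℝ), 0 < R →
      IsSub u (ball x0 R) → IsSub (fun x => -u x) (ball x0 R) →
      (∀ x ∈ ball x0 R, ∀ y ∈ ball x0 R, u x - u y ≤ M) →
      ∀ x ∈ ball x0 (R / 2), DifferentiableAt ℝ u x ∧ ‖fderiv ℝ u x‖ ≤ C * M / R ∧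
        ∀ y ∈ ball x0 (R / 2),
          ‖fderiv ℝ u x - fderiv ℝ u y‖ ≤ C * M / R * (dist x y / R) ^ α := by
  have hR := goodOut bernsteinOut energyOut
  refine ⟨fun U u hU h1 h2 =>
    contDiffOn_of_modules compHyp compareOut bernsteinOut energyOut hR hU ⟨h1, h2⟩, ?_⟩
  obtain ⟨α, C, hα, hC, h⟩ :=
    gradient_estimate_of_modules compHyp compareOut bernsteinOut energyOut hR
  exact ⟨α, C, hα, hC, fun u x0 R M hR h1 h2 hosc => h u x0 R M hR ⟨h1, h2⟩ hosc⟩

end Vale.Agent.Results.P080.GradientHolderDim3
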