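import Vale.Agent.P080.Main

/-!
# Infinity-harmonic functions near a linear function, in every dimension
-/

open scoped RealInnerProductSpace
open Metric Vale.Agent.P080

namespace Vale.Agent.Results.P080.ParabolicFlatness

/-- Flatness decay down to the parabolic scale, and the Liouville theorem it gives. -/
theorem result :
    (∃ α C : ℝ, 0 < α ∧ ∀ (d : ℕ) (u : E d → ℝ) (x0 a : E d) (r b lam ρ : ℝ),
      a ≠ 0 → 0 < lam → IsSub u (ball x0 r) →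
      (∀ x ∈ ball x0 r, |u x - (⟪a, x - x0⟫ + b)| ≤ lam * r * ‖a‖) →
      lam * r ≤ ρ → ρ < r → ∀ x ∈ closedBall x0 ρ, ∀ y ∈ closedBall x0 ρ,
        |(u x - u y) - ⟪a, x - y⟫| ≤ C * (lam * r * ‖a‖) * (ρ ^ 2 / (lam * r ^ 2)) ^ α) ∧
    (∀ (d : ℕ) (u : E d → ℝ) (a : E d) (C0 : ℝ), IsSub u Set.univ →
      (∀ x, |u x - ⟪a, x⟫| ≤ C0) → ∀ x, u x = u 0 + ⟪a, x⟫) :=
  ⟨⟨α0 / 4, 600000, by linarith [α0_pos], fun _ _ _ _ _ _ _ _ ha hl hu hf h1 h2 _ hx _ hy =>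
      flat_decay ha hl hu hf h1 h2 hx hy⟩,
    fun _ _ a _ hu h x => liouville hu a h x⟩

end Vale.Agent.Results.P080.ParabolicFlatness
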